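import Vale.Agent.P325.Sound
import Vale.Agent.P325.Gad
import Vale.Agent.P325.Lin3
import Vale.Agent.P325.Code

namespace Vale.Agent.Results.P325.UGC

open Vale.Agent.P325 Vale.Agent.Lib.PCP

theorem result : ∀ ε δ : ℝ, 0 < ε → 0 < δ → ε + δ < 1 → ∃ k : ℕ, 2 ≤ k ∧
    ∃ red : CNF3 → UG, PolyTime red ∧ ∀ φ : CNF3, (red φ).WF k ∧
      (Sat φ → (red φ).ValGe k (1 - ε)) ∧ (¬ Sat φ → (red φ).ValLe k δ) := by
  intro ε δ hε hδ _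
  obtain ⟨lam, hl, h1⟩ := sound hδ
  obtain ⟨r, h2⟩ := exists_gadget (half_pos hε) hl
  obtain ⟨d, hd, h3⟩ := h1 r
  obtain ⟨m, n, N, C, J, hC, hn, hJ⟩ := h2 d
  obtain ⟨P, k, h4⟩ := h3 m n N J hJ
  obtain ⟨red1, c1, h5⟩ := lin3_hard (η := ε / (2 * (k + 1))) (by positivity)
  obtain ⟨red2, c2, h6⟩ := exists_code ⟨d, m, n, N, J, P, k⟩
  refine ⟨2 ^ d, Nat.le_self_pow (by omega) 2, fun φ => red2 (red1 φ), (c2.comp c1).polyTime,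
    fun φ => ?_⟩
  obtain ⟨k1, k2, k3⟩ := h5 φ
  obtain ⟨l1, l2, l3⟩ := h6 _ k1
  have : Nonempty (Fin (red1 φ).length) := ⟨⟨0, List.length_pos_iff.2 k1⟩⟩
  refine ⟨l1, fun hs => l2 _ ?_, fun hs => l3 _ (h4 _ _ (k3 hs))⟩
  obtain ⟨σ, hσ⟩ := k2 hs
  obtain ⟨lab, hlab⟩ := complete ⟨d, m, n, N, J, P, k⟩ C hC hn _ hσ
  refine ⟨lab, le_trans ?_ hlab⟩
  have : k * (ε / (2 * (k + 1))) ≤ ε / 2 := by
    rw [← mul_div_assoc, div_le_div_iff₀ (by positivity) (by positivity)]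
    nlinarith
  linarith

end Vale.Agent.Results.P325.UGC
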